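import Crest.Agent.X212.Dl42.Dx
import Crest.Agent.X212.Lw78.Int
import Crest.Agent.X212.Mcg32.DecP
import Crest.Agent.X212.Mcg32.DecM
import Crest.Agent.X212.Wd45.Main
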